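import Vale.Agent.P275.H490.Defs

/-!
Row ONE of `P275.H490`: the hook polynomial of the partition with one row (from Row A8).
-/

namespace Vale.Agent.P275.H442

open scoped BigOperators
open Finset Vale.Agent.P275.H341 Vale.Agent.P275.H490

theorem one_mem_Pt (k : ℕ) (hk : 1 ≤ k) :
    (fun i : Fin k => if (i : ℕ) = 0 then k else 0) ∈ Pt k := by
  unfold Pt
  rw [mem_filter, Finset.Nat.mem_antidiagonalTuple]
  constructor
  · have h0 : (0 : ℕ) < k := hk
    rw [Finset.sum_eq_single (⟨0, h0⟩ : Fin k)]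
    · simp
    · intro b _ hb
      have : (b : ℕ) ≠ 0 := fun h => hb (Fin.ext h)
      simp [this]
    · intro h
      exact absurd (mem_univ _) h
  · intro i j hij
    have h : (i : ℕ) ≤ j := hij
    by_cases hj : (j : ℕ) = 0
    · have hi : (i : ℕ) = 0 := by omega
      simp [hi, hj]
    · simp [hj]

theorem jt_one (u : ℕ → ℂ) (hu : u 0 = 1) (k : ℕ) (hk : 1 ≤ k) :
    jt u (fun i : Fin k => if (i : ℕ) = 0 then k else 0) = u k := by
  unfold jt
  rw [Matrix.det_of_upperTriangular]
  · have h0 : (0 : ℕ) < k := hk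
    rw [Finset.prod_eq_single (⟨0, h0⟩ : Fin k)]
    · simp
    · intro b _ hb
      have hb' : (b : ℕ) ≠ 0 := fun h => hb (Fin.ext h)
      simp [hb', hu]
    · intro h
      exact absurd (mem_univ _) h
  · intro i j hij
    have h : (j : ℕ) < i := hij
    have hi : (i : ℕ) ≠ 0 := by omega
    simp only [Matrix.of_apply, if_neg hi, Nat.zero_add]
    rw [if_neg (by omega)]

theorem rowONE (A8 : RowA8) : RowONE := by
  intro k hk1 q hq0 hq
  have h := A8 q hq0 hq k _ (one_mem_Pt k hk1)
  rw [jt_one _ (by simp) k hk1, Finset.prod_inv_distrib] at h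
  have hne : ∏ t ∈ Finset.range k, (q ^ (t + 1) - 1) ≠ 0 :=
    Finset.prod_ne_zero_iff.2 fun t _ => sub_ne_zero.2 (hq (t + 1) (Nat.succ_pos t))
  rw [inv_mul_eq_iff_eq_mul₀ hne, mul_one] at h
  exact h

end Vale.Agent.P275.H442
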